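import Vale.Agent.P050.M18.Main
import Vale.Agent.P050.H546.Spec2
import Vale.Agent.P050.H546.GSpec

/-!
The entropy side for `t` consecutive deleted rungs, from its lemmas.
-/

set_option linter.unusedSectionVars false

namespace Vale.Agent.P050.H589

open Finset Vale.Agent.P050.H148 Vale.Agent.P050.Cart Vale.Agent.P050.M18 Vale.Agent.P050.H546

/-- **the entropy side, from `GBaseStmt`, `GCloseStmt`, `GInfStmt`** -/
theorem gent_of (h1 : GBaseStmt) (h2 : GCloseStmt) (h3 : GInfStmt) : GEntStmt := by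
  intro U _ _ C A Q hE hC hA hA1 n t hn ht
  obtain ⟨Ω, _, P, R, a, b, d, e, hg⟩ := h1 U Q hE n (t + 2) (by omega)
  obtain ⟨h4, h5⟩ := h2 U Ω C A Q P R a b d e n (t + 2) (by omega) hE hC hA hA1 hg
  obtain ⟨i1, i2, i3, i4⟩ := h3 U Q hE
  refine ⟨h4, le_trans ?_ h5⟩
  have hmono : Monotone (hh Q) := monotone_nat_of_le_succ i3
  have e1 : hh Q 2 ≤ hh Q (t + 1) := hmono (by omega)
  have e2 := i2 (t + 2)
  have e3 := hB_ge hE (n + 1) (by omega)
  have e4 := i4 (n + (t + 2))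
  have e5 := i2 2
  have hn' : (1 : ℝ) ≤ n := by exact_mod_cast hn
  have ht' : (1 : ℝ) ≤ t := by exact_mod_cast ht
  have e6 : 0 ≤ (2 * (n : ℝ) + t - 3) * (2 * aQ Q - hh Q 2) :=
    mul_nonneg (by linarith) (by linarith)
  have e7 : t + 2 - 1 = t + 1 := by omega
  rw [e7]
  rw [← i1] at e3
  unfold gQ
  rw [← i1]
  push_cast
  nlinarith [e1, e2, e3, e4, e6]

end Vale.Agent.P050.H589
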